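import Mathlib

/-!
# Chunk ARCH (T5b): choosing the primes so that the divisors are well spread at all scales.

Notation: `y = 8y'`, `K = 2^(32k)`, `t = 2t'`, `β = ks`, `π = |P| ≥ 2^{7y/8}`, primes in `[2^{y-2}, 2^y)`,
`d_A(κ) = ∏_{l<s} A_{l,κ_l}`, so `2^{(y-2)s} ≤ d < 2^{ys}`.  `P_i(A) = #{(κ,κ') : |d-d'| < 2^{ys-4i}}/K^{2s}`.

Claim: the average over `A ∈ P^{s×K}` of `∑_{i=0}^{β} 4^i P_i(A)` is `≤ 2^{3s+1}`; hence for some `A`, `P_i(A) ≤ 2^{3s+1-2i}`
for all `i ≤ β`, and then `(#{κ : τ ≤ d < τ+2^{ys-4i}}/K^s)² ≤ P_i ≤ 2^{3s+1-2i}`, so `#... ≤ 2^{2s+1-i} K^s`.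
-/

set_option autoImplicit false

namespace Crest.Agent.Egy

open Finset

/-- replace the entries `(l, κ l)`, `l ∈ J`, of `A` by `p`. -/
def arch_upd {s K : ℕ} {α : Type} (κ : Fin s → Fin K) (J : Finset (Fin s))
    (A : Fin s → Fin K → α) (p : J → α) : Fin s → Fin K → α :=
  fun l c => if h : l ∈ J ∧ c = κ l then p ⟨l, h.1⟩ else A l c

theorem arch_upd_upd {s K : ℕ} {α : Type} (κ : Fin s → Fin K) (J : Finset (Fin s))
    (A : Fin s → Fin K → α) (p : J → α) :
    arch_upd κ J (arch_upd κ J A p) (fun l => A l (κ l)) = A := by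
  funext l c
  unfold arch_upd
  by_cases h : l ∈ J ∧ c = κ l
  · rw [dif_pos h]
    simp [h.2]
  · rw [dif_neg h, dif_neg h]

theorem arch_upd_at {s K : ℕ} {α : Type} (κ : Fin s → Fin K) (J : Finset (Fin s))
    (A : Fin s → Fin K → α) (p : J → α) (l : J) : arch_upd κ J A p l (κ l) = p l := by
  unfold arch_upd
  rw [dif_pos ⟨l.2, rfl⟩]

def arch_equiv {s K : ℕ} (α : Type) (κ : Fin s → Fin K) (J : Finset (Fin s)) :
    ((Fin s → Fin K → α) × (J → α)) ≃ ((Fin s → Fin K → α) × (J → α)) where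
  toFun x := (arch_upd κ J x.1 x.2, fun l => x.1 l (κ l))
  invFun x := (arch_upd κ J x.1 x.2, fun l => x.1 l (κ l))
  left_inv := by
    rintro ⟨A, p⟩
    simp only [Prod.mk.injEq]
    exact ⟨arch_upd_upd κ J A p, funext fun l => arch_upd_at κ J A p l⟩
  right_inv := by
    rintro ⟨A, p⟩
    simp only [Prod.mk.injEq]
    exact ⟨arch_upd_upd κ J A p, funext fun l => arch_upd_at κ J A p l⟩

theorem arch_resample {s K : ℕ} {α : Type} [Fintype α] [DecidableEq α] (κ : Fin s → Fin K)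
    (J : Finset (Fin s)) (B : (Fin s → Fin K → α) → Prop) [DecidablePred B] (M : ℕ)
    (h : ∀ A, (univ.filter (fun p : J → α => B (arch_upd κ J A p))).card ≤ M) :
    (univ.filter B).card * (Fintype.card α) ^ J.card
      ≤ Fintype.card (Fin s → Fin K → α) * M := by
  have h1 : (univ.filter B).card * (Fintype.card α) ^ J.card
      = ∑ x : (Fin s → Fin K → α) × (J → α), if B x.1 then 1 else 0 := by
    rw [Fintype.sum_prod_type]
    rw [card_filter, sum_mul]
    refine sum_congr rfl fun x _ => ?_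
    by_cases hx : B x
    · simp [hx]
    · simp [hx]
  have h2 : (∑ x : (Fin s → Fin K → α) × (J → α), if B x.1 then 1 else 0)
      = ∑ x : (Fin s → Fin K → α) × (J → α), if B (arch_upd κ J x.1 x.2) then 1 else 0 := by
    rw [← (arch_equiv α κ J).sum_comp]
    rfl
  rw [h1, h2, Fintype.sum_prod_type]
  calc ∑ A : Fin s → Fin K → α, ∑ p : J → α, (if B (arch_upd κ J A p) then 1 else 0)
      = ∑ A : Fin s → Fin K → α, (univ.filter (fun p : J → α => B (arch_upd κ J A p))).card := by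
        refine sum_congr rfl fun A _ => ?_
        rw [card_filter]
    _ ≤ ∑ A : Fin s → Fin K → α, M := sum_le_sum fun A _ => h A
    _ = _ := by rw [sum_const, card_univ, smul_eq_mul]

/-- number of tuples of primes with a given product. -/
theorem arch_fiber {ι : Type} [Fintype ι] [DecidableEq ι] (P : Finset ℕ) (hP : ∀ p ∈ P, p.Prime) (v : ℕ) :
    (univ.filter (fun p : ι → P => ∏ l, (p l : ℕ) = v)).card ≤ Fintype.card ι ^ Fintype.card ι := by
  classical
  rcases (univ.filter (fun p : ι → P => ∏ l, (p l : ℕ) = v)).eq_empty_or_nonempty with h | ⟨p₀, hp₀⟩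
  · rw [h]; simp
  · rw [mem_filter] at hp₀
    have hsub : ∀ p : ι → P, (∏ l, (p l : ℕ) = v) → ∀ l, (p l : ℕ) ∈ univ.image (fun l => (p₀ l : ℕ)) := by
      intro p hp l
      have h1 : (p l : ℕ) ∣ ∏ l, (p₀ l : ℕ) := by
        rw [hp₀.2, ← hp]
        exact dvd_prod_of_mem _ (mem_univ l)
      have h2 : ((p l : ℕ)).Prime := hP _ (p l).2
      obtain ⟨j, _, hj⟩ := (h2.prime.dvd_finsetProd_iff _).1 h1
      have h3 : (p l : ℕ) = (p₀ j : ℕ) := (Nat.prime_dvd_prime_iff_eq h2 (hP _ (p₀ j).2)).1 hj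
      rw [h3]
      exact mem_image_of_mem _ (mem_univ j)
    set T := univ.image (fun l => (p₀ l : ℕ)) with hT
    have hTc : T.card ≤ Fintype.card ι := by
      refine card_image_le.trans ?_
      rw [card_univ]
    have h4 : (univ.filter (fun p : ι → P => ∏ l, (p l : ℕ) = v)).card ≤ (Fintype.piFinset (fun _ : ι => T)).card := by
      refine card_le_card_of_injOn (fun p l => (p l : ℕ)) ?_ ?_
      · intro p hp
        rw [mem_coe, mem_filter] at hp
        rw [mem_coe, Fintype.mem_piFinset]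
        exact fun l => hsub p hp.2 l
      · intro p _ q _ hpq
        funext l
        exact Subtype.ext (congrFun hpq l)
    refine h4.trans ?_
    rw [Fintype.card_piFinset]
    simp only [prod_const, card_univ]
    exact Nat.pow_le_pow_left hTc _

/-- integers `v` with `|e v - d'| < L`. -/
theorem arch_interval (S : Finset ℕ) (e d' L R : ℕ) (he : 2 * L ≤ R * e) (hS : ∀ v ∈ S, |((e * v : ℕ) : ℤ) - (d' : ℤ)| < L) :
    S.card ≤ R := by
  rcases S.eq_empty_or_nonempty with h | hne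
  · rw [h]; simp
  · have hsub : S ⊆ Finset.Ico (S.min' hne) (S.min' hne + R) := by
      intro v hv
      rw [mem_Ico]
      refine ⟨S.min'_le v hv, ?_⟩
      have h1 := hS v hv
      have h2 := hS _ (S.min'_mem hne)
      rw [abs_lt] at h1 h2
      by_contra hcon
      push Not at hcon
      have h3 : e * (S.min' hne + R) ≤ e * v := Nat.mul_le_mul_left _ hcon
      have h4 : ((e * (S.min' hne + R) : ℕ) : ℤ) ≤ ((e * v : ℕ) : ℤ) := by exact_mod_cast h3
      have h5 : ((2 * L : ℕ) : ℤ) ≤ ((R * e : ℕ) : ℤ) := by exact_mod_cast he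
      push_cast at h1 h2 h4 h5
      nlinarith [h1.1, h1.2, h2.1, h2.2]
    refine (card_le_card hsub).trans ?_
    simp

theorem arch_pair {s K : ℕ} (y' n i : ℕ) (P : Finset ℕ)
    (hP : ∀ p ∈ P, p.Prime ∧ 2 ^ (8 * y' - 2) ≤ p ∧ p < 2 ^ (8 * y'))
    (hcard : 2 ^ (7 * y') ≤ P.card) (κ κ' : Fin s → Fin K) (J : Finset (Fin s))
    (hJ : ∀ l ∈ J, κ l ≠ κ' l) (hn : J.card = n) (hn1 : 1 ≤ n) (hns : n ≤ s) (hs2 : s ≤ 2 ^ y')
    (hi : 4 * i ≤ 8 * y' * n) (hi2 : 2 * y' * n ≤ s + i) (hy : 1 ≤ y') :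
    (univ.filter (fun A : Fin s → Fin K → P =>
        |((∏ l, (A l (κ l) : ℕ) : ℕ) : ℤ) - ((∏ l, (A l (κ' l) : ℕ) : ℕ) : ℤ)|
          < 2 ^ (8 * y' * s - 4 * i))).card * 2 ^ (3 * i)
      ≤ 2 ^ (3 * s) * Fintype.card (Fin s → Fin K → P) := by
  classical
  set B : (Fin s → Fin K → P) → Prop := fun A =>
        |((∏ l, (A l (κ l) : ℕ) : ℕ) : ℤ) - ((∏ l, (A l (κ' l) : ℕ) : ℕ) : ℤ)|
          < 2 ^ (8 * y' * s - 4 * i) with hB
  have key : ∀ A, (univ.filter (fun p : J → P => B (arch_upd κ J A p))).card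
      ≤ n ^ n * 2 ^ (8 * y' * n - 4 * i + 2 * s) := by
    intro A
    set S := univ.filter (fun p : J → P => B (arch_upd κ J A p)) with hS
    set e : ℕ := ∏ l ∈ Jᶜ, (A l (κ l) : ℕ) with he
    set d' : ℕ := ∏ l, (A l (κ' l) : ℕ) with hd'
    have hprod : ∀ p : J → P, ∏ l, ((arch_upd κ J A p l (κ l) : P) : ℕ) = e * ∏ l : J, (p l : ℕ) := by
      intro p
      rw [← Finset.prod_mul_prod_compl J, mul_comm]
      congr 1
      · refine prod_congr rfl fun l hl => ?_
        unfold arch_upd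
        rw [dif_neg]
        intro h
        exact (mem_compl.1 hl) h.1
      · rw [← Finset.prod_coe_sort]
        refine prod_congr rfl fun l _ => ?_
        rw [arch_upd_at]
    have hprod' : ∀ p : J → P, ∏ l, ((arch_upd κ J A p l (κ' l) : P) : ℕ) = d' := by
      intro p
      refine prod_congr rfl fun l _ => ?_
      unfold arch_upd
      rw [dif_neg]
      intro h
      exact hJ l h.1 h.2.symm
    have hele : (2 ^ (8 * y' - 2)) ^ (s - n) ≤ e := by
      have h1 : ∏ l ∈ Jᶜ, 2 ^ (8 * y' - 2) ≤ e := by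
        refine Finset.prod_le_prod (fun _ _ => Nat.zero_le _) fun l _ => ?_
        exact (hP _ (A l (κ l)).2).2.1
      rw [prod_const, card_compl, Fintype.card_fin, hn] at h1
      exact h1
    have himg : (S.image (fun p => ∏ l : J, (p l : ℕ))).card ≤ 2 ^ (8 * y' * n - 4 * i + 2 * (s - n) + 1) := by
      refine arch_interval _ e d' (2 ^ (8 * y' * s - 4 * i)) _ ?_ ?_
      · calc 2 * 2 ^ (8 * y' * s - 4 * i) = 2 ^ (8 * y' * n - 4 * i + 2 * (s - n) + 1) * (2 ^ (8 * y' - 2)) ^ (s - n) := by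
              rw [← pow_mul, ← pow_add, ← pow_succ']
              congr 1
              obtain ⟨m, rfl⟩ := Nat.exists_eq_add_of_le hns
              obtain ⟨z, rfl⟩ := Nat.exists_eq_add_of_le hy
              have e1 : 8 * (1 + z) - 2 = 6 + 8 * z := by omega
              rw [e1, Nat.add_sub_cancel_left]
              have e2 : 8 * (1 + z) * (n + m) = 8 * (1 + z) * n + (2 * m + (6 + 8 * z) * m) := by ring
              omega
          _ ≤ _ := Nat.mul_le_mul_left _ hele
      · intro v hv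
        rw [mem_image] at hv
        obtain ⟨p, hp, rfl⟩ := hv
        rw [hS, mem_filter] at hp
        have h1 := hp.2
        rw [hB] at h1
        simp only [hprod, hprod'] at h1
        push_cast at h1 ⊢
        exact h1
    have hfib : S.card ≤ n ^ n * (S.image (fun p => ∏ l : J, (p l : ℕ))).card := by
      refine Finset.card_le_mul_card_image S _ fun v _ => ?_
      refine (card_le_card ?_).trans ((arch_fiber (ι := J) P (fun p hp => (hP p hp).1) v).trans ?_)
      · intro p hp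
        rw [mem_filter] at hp ⊢
        exact ⟨mem_univ _, hp.2⟩
      · rw [Fintype.card_coe, hn]
    refine hfib.trans (Nat.mul_le_mul_left _ (himg.trans ?_))
    exact Nat.pow_le_pow_right (by norm_num) (by omega)
  have h1 := arch_resample κ J B _ key
  rw [hn] at h1
  set F := Fintype.card (Fin s → Fin K → P) with hF
  set b := (univ.filter B).card with hb
  have h2 : b * 2 ^ (7 * y' * n) ≤ F * 2 ^ (9 * y' * n - 4 * i + 2 * s) := by
    calc b * 2 ^ (7 * y' * n) ≤ b * (Fintype.card P) ^ n := by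
          refine Nat.mul_le_mul_left _ ?_
          rw [pow_mul, Fintype.card_coe]
          exact Nat.pow_le_pow_left hcard _
      _ ≤ F * (n ^ n * 2 ^ (8 * y' * n - 4 * i + 2 * s)) := h1
      _ ≤ F * ((2 ^ y') ^ n * 2 ^ (8 * y' * n - 4 * i + 2 * s)) := by
          refine Nat.mul_le_mul_left _ (Nat.mul_le_mul_right _ ?_)
          exact Nat.pow_le_pow_left (hns.trans hs2) _
      _ = F * 2 ^ (9 * y' * n - 4 * i + 2 * s) := by
          rw [← pow_mul, ← pow_add]
          congr 2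
          have : 9 * y' * n = y' * n + 8 * y' * n := by ring
          omega
  have h3 : b * 2 ^ (3 * i) * 2 ^ (7 * y' * n) ≤ 2 ^ (3 * s) * F * 2 ^ (7 * y' * n) := by
    calc b * 2 ^ (3 * i) * 2 ^ (7 * y' * n) = (b * 2 ^ (7 * y' * n)) * 2 ^ (3 * i) := by ring
      _ ≤ (F * 2 ^ (9 * y' * n - 4 * i + 2 * s)) * 2 ^ (3 * i) := Nat.mul_le_mul_right _ h2
      _ = F * 2 ^ (9 * y' * n - 4 * i + 2 * s + 3 * i) := by rw [mul_assoc, ← pow_add]
      _ ≤ F * 2 ^ (3 * s + 7 * y' * n) := by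
          refine Nat.mul_le_mul_left _ (Nat.pow_le_pow_right (by norm_num) ?_)
          have e1 : 9 * y' * n = 7 * y' * n + 2 * y' * n := by ring
          have e2 : 8 * y' * n ≤ 9 * y' * n := by nlinarith
          omega
      _ = 2 ^ (3 * s) * F * 2 ^ (7 * y' * n) := by rw [pow_add]; ring
  exact Nat.le_of_mul_le_mul_right h3 (by positivity)

/-- geometric sums -/
theorem arch_geom (a : ℕ → ℕ) (X m : ℕ) (h : ∀ i, 1 ≤ i → i ≤ m → a i * 2 ^ i ≤ X) :
    ∑ i ∈ range m, a (i + 1) ≤ X := by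
  have key : ∀ j ≤ m, 2 ^ j * ∑ i ∈ range j, a (i + 1) + X ≤ 2 ^ j * X := by
    intro j
    induction j with
    | zero => intro _; simp
    | succ j ih =>
      intro hj
      have h1 := ih (by omega)
      have h2 := h (j + 1) (by omega) hj
      rw [sum_range_succ]
      have h3 : 2 ^ (j + 1) * (∑ i ∈ range j, a (i + 1) + a (j + 1)) = 2 * (2 ^ j * ∑ i ∈ range j, a (i + 1)) + a (j + 1) * 2 ^ (j + 1) := by
        rw [pow_succ]; ring
      have h4 : 2 ^ (j + 1) * X = 2 * (2 ^ j * X) := by rw [pow_succ]; ring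
      rw [h3, h4]
      omega
  have h1 := key m le_rfl
  have h2 : 2 ^ m * ∑ i ∈ range m, a (i + 1) ≤ 2 ^ m * X := by omega
  exact Nat.le_of_mul_le_mul_left h2 (by positivity)

theorem arch_close {s K : ℕ} (hK : 1 ≤ K) (κ : Fin s → Fin K) :
    (univ.filter (fun κ' : Fin s → Fin K =>
      2 * (univ.filter (fun l => κ l ≠ κ' l)).card < s)).card ≤ K ^ (s / 2) * 2 ^ s := by
  classical
  set S := univ.filter (fun κ' : Fin s → Fin K => 2 * (univ.filter (fun l => κ l ≠ κ' l)).card < s) with hS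
  have h1 : S.card ≤ K ^ (s / 2) * (S.image (fun κ' => univ.filter (fun l => κ l ≠ κ' l))).card := by
    refine Finset.card_le_mul_card_image S _ fun D hD => ?_
    rw [mem_image] at hD
    obtain ⟨κ₀, hκ₀, hD⟩ := hD
    rw [hS, mem_filter] at hκ₀
    have hDs : D.card ≤ s / 2 := by
      rw [← hD]; omega
    calc (S.filter (fun κ' => (univ.filter (fun l => κ l ≠ κ' l)) = D)).card
        ≤ (univ : Finset (D → Fin K)).card := by
          refine card_le_card_of_injOn (fun κ' l => κ' l) (fun _ _ => mem_univ _) ?_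
          intro κ₁ h₁ κ₂ h₂ h12
          rw [mem_coe, mem_filter] at h₁ h₂
          funext l
          by_cases hl : l ∈ D
          · exact congrFun h12 ⟨l, hl⟩
          · have e1 : κ l = κ₁ l := by
              by_contra hne
              apply hl
              rw [← h₁.2, mem_filter]
              exact ⟨mem_univ _, hne⟩
            have e2 : κ l = κ₂ l := by
              by_contra hne
              apply hl
              rw [← h₂.2, mem_filter]
              exact ⟨mem_univ _, hne⟩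
            rw [← e1, e2]
      _ = K ^ D.card := by rw [card_univ, Fintype.card_fun, Fintype.card_coe, Fintype.card_fin]
      _ ≤ K ^ (s / 2) := Nat.pow_le_pow_right hK hDs
  refine h1.trans (Nat.mul_le_mul_left _ ?_)
  calc (S.image (fun κ' => univ.filter (fun l => κ l ≠ κ' l))).card ≤ (univ : Finset (Finset (Fin s))).card :=
        card_le_card (subset_univ _)
    _ = 2 ^ s := by rw [card_univ, Fintype.card_finset, Fintype.card_fin]

theorem arch_aux (k t' y' s K : ℕ) (hK : K = 2 ^ (32 * k)) (hk : 8 ≤ k) (ht : 4 ≤ t')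
    (hy : y' = k * t') (hs : 8 * y' ≤ s)
    (hs2 : s ≤ 2 ^ y') (P : Finset ℕ)
    (hP : ∀ p ∈ P, p.Prime ∧ 2 ^ (8 * y' - 2) ≤ p ∧ p < 2 ^ (8 * y'))
    (hcard : 2 ^ (7 * y') ≤ P.card) :
    ∃ A : Fin s → Fin K → P,
      ∑ i ∈ range (k * s + 1), 4 ^ i *
        (univ.filter (fun q : (Fin s → Fin K) × (Fin s → Fin K) =>
          |((∏ l, (A l (q.1 l) : ℕ) : ℕ) : ℤ) - ((∏ l, (A l (q.2 l) : ℕ) : ℕ) : ℤ)|
            < 2 ^ (8 * y' * s - 4 * i))).card ≤ 2 ^ (3 * s + 1) * K ^ (2 * s) := by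
  classical
  have hK1 : 1 ≤ K := by rw [hK]; exact Nat.one_le_two_pow
  have hy32 : 32 ≤ y' := by rw [hy]; nlinarith
  have hs256 : 256 ≤ s := by omega
  have : Nonempty P := by
    have : 0 < P.card := lt_of_lt_of_le (by positivity) hcard
    obtain ⟨p, hp⟩ := card_pos.1 this
    exact ⟨⟨p, hp⟩⟩
  obtain ⟨F, hF⟩ : ∃ F, F = Fintype.card (Fin s → Fin K → P) := ⟨_, rfl⟩
  let B : ℕ → (Fin s → Fin K → P) → (Fin s → Fin K) → (Fin s → Fin K) → Prop := fun i A κ κ' =>
    |((∏ l, (A l (κ l) : ℕ) : ℕ) : ℤ) - ((∏ l, (A l (κ' l) : ℕ) : ℕ) : ℤ)|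
            < 2 ^ (8 * y' * s - 4 * i)
  let N : ℕ → (Fin s → Fin K) → (Fin s → Fin K) → ℕ := fun i κ κ' =>
    (univ.filter (fun A => B i A κ κ')).card
  have hN : ∀ i κ κ', N i κ κ' ≤ F := by
    intro i κ κ'
    rw [hF, ← card_univ]
    exact card_le_card (subset_univ _)
  have hNfar : ∀ i κ κ', 1 ≤ i → i ≤ k * s → s ≤ 2 * (univ.filter (fun l => κ l ≠ κ' l)).card →
      N i κ κ' * 2 ^ (3 * i) ≤ 2 ^ (3 * s) * F := by
    intro i κ κ' hi1 hi2 hfar
    obtain ⟨n, hn⟩ : ∃ n, n = (i + 2 * y' - 1) / (2 * y') := ⟨_, rfl⟩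
    have hn2 : 2 * y' * n ≤ i + 2 * y' - 1 := by
      rw [hn]; exact Nat.mul_div_le _ _
    have hn3 : i ≤ 2 * y' * n := by
      have h1 : i + 2 * y' - 1 < 2 * y' * (n + 1) := by
        rw [hn]
        exact Nat.lt_mul_div_succ _ (by omega)
      have h2 : 2 * y' * (n + 1) = 2 * y' * n + 2 * y' := by ring
      omega
    have hn1 : 1 ≤ n := by
      rcases Nat.eq_zero_or_pos n with h | h
      · rw [h] at hn3; omega
      · exact h
    have hn4 : 2 * n ≤ s := by
      obtain ⟨m, rfl⟩ := Nat.exists_eq_add_of_le hn1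
      have h1 : 2 * y' * (1 + m) = 2 * y' + 2 * y' * m := by ring
      have h2 : 2 * y' * m ≤ k * s := by omega
      rw [hy] at h2
      have h3 : k * (2 * t' * m) ≤ k * s := by
        calc k * (2 * t' * m) = 2 * (k * t') * m := by ring
          _ ≤ k * s := h2
      have h4 : 2 * t' * m ≤ s := Nat.le_of_mul_le_mul_left h3 (by omega)
      have h5 : 8 * m ≤ 2 * t' * m := Nat.mul_le_mul_right _ (by omega)
      omega
    obtain ⟨J, hJ, hJc⟩ := Finset.exists_subset_card_eq (s := univ.filter (fun l => κ l ≠ κ' l))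
      (n := n) (by omega)
    refine hF ▸ arch_pair y' n i P hP hcard κ κ' J ?_ hJc hn1 (by omega) hs2 ?_ ?_ (by omega)
    · intro l hl
      exact (mem_filter.1 (hJ hl)).2
    · calc 4 * i ≤ 4 * (2 * y' * n) := Nat.mul_le_mul_left _ hn3
        _ = 8 * y' * n := by ring
    · omega
  have hpair : ∀ κ κ', ∑ i ∈ range (k * s + 1), 4 ^ i * N i κ κ'
      ≤ F * (1 + 2 ^ (3 * s)) +
        (if 2 * (univ.filter (fun l => κ l ≠ κ' l)).card < s then F * 4 ^ (k * s + 1) else 0) := by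
    intro κ κ'
    split_ifs with h
    · calc ∑ i ∈ range (k * s + 1), 4 ^ i * N i κ κ' ≤ ∑ i ∈ range (k * s + 1), 4 ^ i * F :=
            sum_le_sum fun i _ => Nat.mul_le_mul_left _ (hN i κ κ')
        _ = (∑ i ∈ range (k * s + 1), 4 ^ i) * F := by rw [sum_mul]
        _ ≤ 4 ^ (k * s + 1) * F := by
            refine Nat.mul_le_mul_right _ ?_
            rw [Nat.geomSum_eq (by norm_num)]
            exact (Nat.div_le_self _ _).trans (Nat.sub_le _ _)
        _ = F * 4 ^ (k * s + 1) := mul_comm _ _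
        _ ≤ _ := Nat.le_add_left _ _
    · rw [add_zero, sum_range_succ']
      have h1 : ∑ i ∈ range (k * s), 4 ^ (i + 1) * N (i + 1) κ κ' ≤ 2 ^ (3 * s) * F := by
        refine arch_geom (fun i => 4 ^ i * N i κ κ') _ _ ?_
        intro i hi1 hi2
        have h2 := hNfar i κ κ' hi1 hi2 (by omega)
        calc 4 ^ i * N i κ κ' * 2 ^ i = N i κ κ' * 2 ^ (3 * i) := by
              rw [show (4 : ℕ) = 2 ^ 2 by norm_num, ← pow_mul]
              rw [show 3 * i = 2 * i + i by ring, pow_add]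
              ring
          _ ≤ _ := h2
      have h2 := hN 0 κ κ'
      simp only [pow_zero, one_mul]
      calc _ ≤ 2 ^ (3 * s) * F + F := Nat.add_le_add h1 h2
        _ = _ := by ring
  have hswap : ∑ A : Fin s → Fin K → P, ∑ i ∈ range (k * s + 1), 4 ^ i *
        (univ.filter (fun q : (Fin s → Fin K) × (Fin s → Fin K) => B i A q.1 q.2)).card
      = ∑ q : (Fin s → Fin K) × (Fin s → Fin K), ∑ i ∈ range (k * s + 1), 4 ^ i * N i q.1 q.2 := by
    rw [sum_comm, sum_comm (s := univ (α := (Fin s → Fin K) × (Fin s → Fin K)))]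
    refine sum_congr rfl fun i _ => ?_
    rw [← mul_sum, ← mul_sum]
    congr 1
    simp only [N, card_filter]
    rw [sum_comm]
  have hcl : ∀ κ : Fin s → Fin K, ∑ κ' : Fin s → Fin K,
      (if 2 * (univ.filter (fun l => κ l ≠ κ' l)).card < s then F * 4 ^ (k * s + 1) else 0)
        ≤ F * K ^ s := by
    intro κ
    rw [← sum_filter, sum_const, smul_eq_mul]
    calc _ ≤ (K ^ (s / 2) * 2 ^ s) * (F * 4 ^ (k * s + 1)) :=
          Nat.mul_le_mul_right _ (arch_close hK1 κ)
      _ = F * (K ^ (s / 2) * 2 ^ s * 4 ^ (k * s + 1)) := by ring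
      _ ≤ F * K ^ s := by
          refine Nat.mul_le_mul_left _ ?_
          rw [hK, show (4 : ℕ) = 2 ^ 2 by norm_num, ← pow_mul, ← pow_mul, ← pow_mul, ← pow_add, ← pow_add]
          refine Nat.pow_le_pow_right (by norm_num) ?_
          have h1 : 32 * k * (s / 2) ≤ 16 * (k * s) := by
            calc 32 * k * (s / 2) = 16 * k * (2 * (s / 2)) := by ring
              _ ≤ 16 * k * s := Nat.mul_le_mul_left _ (Nat.mul_div_le _ _)
              _ = 16 * (k * s) := by ring
          have h2 : 32 * k * s = 32 * (k * s) := by ring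
          have h3 : s ≤ k * s := Nat.le_mul_of_pos_left _ (by omega)
          omega
  have htot : ∑ q : (Fin s → Fin K) × (Fin s → Fin K), ∑ i ∈ range (k * s + 1), 4 ^ i * N i q.1 q.2
      ≤ F * (2 ^ (3 * s + 1) * K ^ (2 * s)) := by
    calc _ ≤ ∑ q : (Fin s → Fin K) × (Fin s → Fin K), (F * (1 + 2 ^ (3 * s)) +
        (if 2 * (univ.filter (fun l => q.1 l ≠ q.2 l)).card < s then F * 4 ^ (k * s + 1) else 0)) :=
          sum_le_sum fun q _ => hpair q.1 q.2
      _ = (K ^ s * K ^ s) * (F * (1 + 2 ^ (3 * s))) + ∑ κ : Fin s → Fin K, ∑ κ' : Fin s → Fin K,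
        (if 2 * (univ.filter (fun l => κ l ≠ κ' l)).card < s then F * 4 ^ (k * s + 1) else 0) := by
          rw [sum_add_distrib, sum_const, card_univ, Fintype.card_prod, Fintype.card_fun,
            Fintype.card_fin, Fintype.card_fin, smul_eq_mul, Fintype.sum_prod_type]
      _ ≤ (K ^ s * K ^ s) * (F * (1 + 2 ^ (3 * s))) + ∑ κ : Fin s → Fin K, F * K ^ s :=
          Nat.add_le_add_left (sum_le_sum fun κ _ => hcl κ) _
      _ = (K ^ s * K ^ s) * (F * (1 + 2 ^ (3 * s))) + K ^ s * (F * K ^ s) := by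
          rw [sum_const, card_univ, Fintype.card_fun, Fintype.card_fin, Fintype.card_fin, smul_eq_mul]
      _ = F * ((2 + 2 ^ (3 * s)) * K ^ (2 * s)) := by ring
      _ ≤ F * (2 ^ (3 * s + 1) * K ^ (2 * s)) := by
          refine Nat.mul_le_mul_left _ (Nat.mul_le_mul_right _ ?_)
          have : 2 ≤ 2 ^ (3 * s) := by
            calc 2 = 2 ^ 1 := by norm_num
              _ ≤ _ := Nat.pow_le_pow_right (by norm_num) (by omega)
          rw [pow_succ]
          omega
  rw [← hswap] at htot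
  have hfin : ∑ A : Fin s → Fin K → P, ∑ i ∈ range (k * s + 1), 4 ^ i *
        (univ.filter (fun q : (Fin s → Fin K) × (Fin s → Fin K) => B i A q.1 q.2)).card
      ≤ ∑ A : Fin s → Fin K → P, 2 ^ (3 * s + 1) * K ^ (2 * s) := by
    rw [sum_const, card_univ, ← hF, smul_eq_mul]
    exact htot
  obtain ⟨A, _, hA⟩ := exists_le_of_sum_le univ_nonempty hfin
  exact ⟨A, hA⟩

theorem arch (k t' y' s : ℕ) (hk : 8 ≤ k) (ht : 4 ≤ t') (hy : y' = k * t') (hs : 8 * y' ≤ s)
    (hs2 : s ≤ 2 ^ y') (P : Finset ℕ)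
    (hP : ∀ p ∈ P, p.Prime ∧ 2 ^ (8 * y' - 2) ≤ p ∧ p < 2 ^ (8 * y'))
    (hcard : 2 ^ (7 * y') ≤ P.card) :
    ∃ A : Fin s → Fin (2 ^ (32 * k)) → ℕ, (∀ l i, A l i ∈ P) ∧
      ∀ i ≤ k * s, ∀ τ : ℤ,
        (Finset.univ.filter (fun κ : Fin s → Fin (2 ^ (32 * k)) =>
            τ ≤ ((∏ l, A l (κ l) : ℕ) : ℤ) ∧
              ((∏ l, A l (κ l) : ℕ) : ℤ) < τ + 2 ^ (8 * y' * s - 4 * i))).card * 2 ^ i
          ≤ 2 ^ (2 * s + 1) * (2 ^ (32 * k)) ^ s := by
  classical
  obtain ⟨K, hK⟩ : ∃ K, K = 2 ^ (32 * k) := ⟨_, rfl⟩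
  rw [← hK]
  obtain ⟨A, hA⟩ := arch_aux k t' y' s K hK hk ht hy hs hs2 P hP hcard
  refine ⟨fun l i => (A l i : ℕ), fun l i => (A l i).2, ?_⟩
  intro i hi τ
  set S := (Finset.univ.filter (fun κ : Fin s → Fin K =>
            τ ≤ ((∏ l, (A l (κ l) : ℕ) : ℕ) : ℤ) ∧
              ((∏ l, (A l (κ l) : ℕ) : ℕ) : ℤ) < τ + 2 ^ (8 * y' * s - 4 * i))) with hS
  have h1 : 4 ^ i * (S.card * S.card) ≤ 2 ^ (3 * s + 1) * K ^ (2 * s) := by
    refine le_trans ?_ hA
    refine le_trans ?_ (single_le_sum (f := fun i => 4 ^ i *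
        (univ.filter (fun q : (Fin s → Fin K) × (Fin s → Fin K) =>
          |((∏ l, (A l (q.1 l) : ℕ) : ℕ) : ℤ) - ((∏ l, (A l (q.2 l) : ℕ) : ℕ) : ℤ)|
            < 2 ^ (8 * y' * s - 4 * i))).card) (fun _ _ => Nat.zero_le _)
        (mem_range.2 (Nat.lt_succ_of_le hi)))
    refine Nat.mul_le_mul_left _ ?_
    rw [← card_product]
    refine card_le_card ?_
    rintro ⟨κ, κ'⟩ hq
    rw [mem_product] at hq
    rw [hS, mem_filter, mem_filter] at hq
    rw [mem_filter]
    refine ⟨mem_univ _, ?_⟩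
    obtain ⟨⟨_, h1, h2⟩, ⟨_, h3, h4⟩⟩ := hq
    rw [abs_lt]
    constructor
    · linarith
    · linarith
  have h2 : (S.card * 2 ^ i) ^ 2 ≤ (2 ^ (2 * s + 1) * K ^ s) ^ 2 := by
    calc (S.card * 2 ^ i) ^ 2 = 4 ^ i * (S.card * S.card) := by
          rw [show (4 : ℕ) = 2 ^ 2 by norm_num, ← pow_mul]; ring
      _ ≤ 2 ^ (3 * s + 1) * K ^ (2 * s) := h1
      _ ≤ 2 ^ (2 * (2 * s + 1)) * K ^ (2 * s) :=
          Nat.mul_le_mul_right _ (Nat.pow_le_pow_right (by norm_num) (by omega))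
      _ = (2 ^ (2 * s + 1) * K ^ s) ^ 2 := by
          rw [mul_pow, ← pow_mul, ← pow_mul]
          ring
  exact (Nat.pow_le_pow_iff_left two_ne_zero).1 h2

end Crest.Agent.Egy
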