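import Mathlib

/-!
# Chunk COUNT (T5e): number of solutions of a linear congruence in a box.

Step 1 (mod `m ≤ G`): for a finite set `s` of indices and integers `c_i`,
`#{g ∈ [1,G]^s : ∑ c_i g_i ≡ e mod m} · m ≤ 2^{|s|} G^{|s|} gcd(gcd_{i∈s} c_i, m)`, by induction on `s`:
with `g' = gcd(gcd_s c, m)`, summing over the new variable `g_i`: zero unless `c_i g_i ≡ e mod g'`, which holds for at most
`G·gcd(c_i,g')/g' + 1 ≤ 2G·gcd(c_i,g')/g'` values of `g_i` (as `g' ≤ m ≤ G`).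
Step 2: `h₀ = gcd(c) ≤ h`, `c' = c/h₀`, `m = |c'_{i₀}| = max |c'_i| ≤ G`.  `h₀ < Q` is invertible mod `Q`, so
`∑ c_i g_i ≡ e` iff `E := ∑ c'_i g_i ≡ e' mod Q`; `|E| ≤ R m G` so at most `2RmG/Q + 1` integers `E` occur; for each,
`g_{i₀}` is determined by the others, which satisfy `∑_{i≠i₀} c'_i g_i ≡ E mod m`, and `gcd(gcd_{i≠i₀} c'_i, m) = 1`, so
at most `2^{R-1} G^{R-1}/m` solutions.  Total `≤ 2^{R-1}G^R (2R/Q + 1/(mG))`, `1/m ≤ h/|c_j|`.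
-/

set_option autoImplicit false

namespace Crest.Agent.Egy

theorem count_prime {ι : Type} [Fintype ι] [DecidableEq ι] (c : ι → ℤ) (G Q h : ℕ) (hG : 1 ≤ G)
    (hc : ∀ i, |c i| ≤ (G : ℤ)) (hGQ : G < Q) (hQ : Q.Prime)
    (hh : ∀ w : ℕ, (∀ i, (w : ℤ) ∣ c i) → w ≤ h) (j : ι) (hj : c j ≠ 0) (e : ℤ) :
    (((Fintype.piFinset (fun _ : ι => Finset.Icc 1 G)).filter
        (fun g : ι → ℕ => (Q : ℤ) ∣ ∑ i, c i * (g i : ℤ) - e)).card : ℝ)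
      ≤ 2 ^ (Fintype.card ι) * (G : ℝ) ^ (Fintype.card ι) *
          ((Fintype.card ι : ℝ) / Q + h / (G * ((|c j| : ℤ) : ℝ))) := by
  sorry

end Crest.Agent.Egy
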