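import Mathlib

/-!
# Chunk STRUCT (T5d + gcd moment).

`exists_struct`: choose `(w₀, c₀)` with `1 ≤ w₀ ≤ 2M`, `c₀ < w₀` maximising `w₀^3 · #{x ≡ c₀ mod w₀}^r`.
(`w = 1`: first inequality.  `(w₀w, c₀ + w₀a)`: second one.)

`gcd_sum`: `gcd(D) ≤ ∑_{w ≤ V} w·1[w ∣ D_i ∀ i]` for `D ≠ 0`; for fixed `(p.2, p'.2)` the number of `(p.1, p'.1)` with
`v(p.1 i) ≡ v(p'.1 i) + v(p.2) - v(p'.2) mod w` for all `i` is `≤ (|Ω| n_w)^r`, `n_w^r w^3 ≤ |Ω|^r`;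
so the sum is `≤ |Ω|^{2r+2} ∑_w w·w^{-3} ≤ 2|Ω|^{2r+2}`.
-/

set_option autoImplicit false

namespace Crest.Agent.Egy

theorem exists_struct {Ω : Type} [Fintype Ω] [Nonempty Ω] (x : Ω → ℕ) (M r : ℕ) (hM : 1 ≤ M) (hr : 1 ≤ r) :
    ∃ w₀ c₀ : ℕ, 1 ≤ w₀ ∧ w₀ ≤ 2 * M ∧
      (Fintype.card Ω) ^ r ≤ w₀ ^ 3 * (Finset.univ.filter (fun ω => x ω % w₀ = c₀)).card ^ r ∧
      ∀ w, 1 ≤ w → w₀ * w ≤ 2 * M → ∀ a : ℤ,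
        w ^ 3 * (Finset.univ.filter
            (fun ω => x ω % w₀ = c₀ ∧ (w : ℤ) ∣ ((x ω / w₀ : ℕ) : ℤ) - a)).card ^ r
          ≤ (Finset.univ.filter (fun ω => x ω % w₀ = c₀)).card ^ r := by
  sorry

theorem gcd_sum {Ω : Type} [Fintype Ω] (v : Ω → ℤ) (r V : ℕ) (hr : 1 ≤ r)
    (hV : ∀ a b c d, |(v a - v b) - (v c - v d)| ≤ (V : ℤ))
    (H : ∀ w : ℕ, 1 ≤ w → w ≤ V → ∀ a : ℤ,
      w ^ 3 * (Finset.univ.filter (fun ω => (w : ℤ) ∣ v ω - a)).card ^ r ≤ (Fintype.card Ω) ^ r) :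
    ∑ p : (Fin r → Ω) × Ω, ∑ p' : (Fin r → Ω) × Ω,
      ((Finset.univ.gcd (fun i : Fin r =>
          ((v (p.1 i) - v (p'.1 i)) - (v p.2 - v p'.2)).natAbs) : ℕ) : ℝ)
        ≤ 2 * (Fintype.card Ω : ℝ) ^ (2 * r + 2) := by
  sorry

end Crest.Agent.Egy
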