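import Crest.Agent.Egy.Count
import Crest.Agent.Egy.Struct

/-!
# Chunk COVER (T5g): random multipliers, collisions, Cauchy–Davenport.

`cd_cover`: iterate `ZMod.cauchy_davenport`: `|nU| ≥ min(Q, n|U| - (n-1))`, `n = 2C`, `n|U| - n + 1 ≥ 2Q - 2C + 1 ≥ Q`.

`cover`: take `(w₀,c₀)` from `exists_struct x M 96`, `Ω₀ = {x ≡ c₀ mod w₀}` (nonempty), `v = x / w₀` on `Ω₀`,
`G = w₀⌈2M/w₀⌉ ∈ [2M, 4M]`, `w₀ ∣ G`, `V = 2M/w₀` (floor).  Multipliers `g = (γ_i)_{i<96}, (η_j)_{j<40} ∈ [1,G]^{136}`,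
`γ_96 = 97G - ∑_{i<96} γ_i ∈ [G, 97G]`.  For `ω = ((x_i)_{i<96}, o, (y_j)) ∈ Ω₀^{96} × Ω₀ × Ω^{40}` put
`u_g(ω) = (∑ γ_i x_i + γ_96 x(o))/w₀ + ∑ η_j y_j = 97Gc₀/w₀ + ∑ γ_i v_i + γ_96 v(o) + ∑ η_j y_j` (an integer!).
`u_g(ω) - u_g(ω') = ∑_{i<96} γ_i D_i + ∑ η_j δ_j + 97 G (v(o) - v(o'))` with `D_i = (v_i - v_i') - (v(o) - v(o'))`, `δ_j = y_j - y_j'`.
For fixed `(ω, ω')` the number of `g` with `Q ∣ u_g(ω) - u_g(ω')` is `≤ G^136` always, and if `D ≠ 0`, `δ ≠ 0`, by `count_prime`,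
`≤ 2^136 G^136 (136/Q + gcd(D)/(G |δ|_∞))`.  Summing over `(ω, ω')`:
* pairs with `δ = 0`: proportion `≤ (max_a #{x=a}/|Ω|)^40 ≤ 1/Q`;
* pairs with `D = 0`: proportion `≤ (max #{x=a}/|Ω₀|)^96 ≤ (max #{x=a}/|Ω|)^96 w₀^3 ≤ 1/Q`;
* the rest: `2^136 G^136 (136/Q + E[gcd D] E[1/|δ|_∞; δ≠0] / G) ≤ 2^136 G^136 (136/Q + 2 (M/Q)/(2M))` (`gcd_sum`, hypothesis 3).
So for some `g` the number of collisions is `≤ C₈ |total|²/Q`, so (Cauchy–Schwarz) the image of `u_g` mod `Q` has at least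
`Q/C₈` elements, and `cd_cover` applies with `n = 2C₈`.
-/

set_option autoImplicit false

namespace Crest.Agent.Egy

theorem cd_cover (Q C : ℕ) (hQ : Q.Prime) (hC : 1 ≤ C) (hCQ : 2 * C ≤ Q) (U : Finset (ZMod Q))
    (hU : Q ≤ C * U.card) (z : ZMod Q) :
    ∃ f : Fin (2 * C) → ZMod Q, (∀ i, f i ∈ U) ∧ ∑ i, f i = z := by
  sorry

theorem cover : ∃ n : ℕ, 1 ≤ n ∧ ∀ (Ω : Type) [Fintype Ω] [Nonempty Ω] (x : Ω → ℕ) (M Q : ℕ),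
    1 ≤ M → Q.Prime → 4 * M < Q → n ≤ Q → (∀ ω, x ω < M) →
    (∀ a, (Finset.univ.filter (fun ω => x ω = a)).card ^ 96 * (2 * M) ^ 3 * Q ≤ (Fintype.card Ω) ^ 96) →
    (∀ a, (Finset.univ.filter (fun ω => x ω = a)).card ^ 40 * Q ≤ (Fintype.card Ω) ^ 40) →
    (∑ y : Fin 40 → Ω, ∑ y' : Fin 40 → Ω,
        (1 : ℝ) / ((Finset.univ.sup fun j => ((x (y j) : ℤ) - (x (y' j) : ℤ)).natAbs : ℕ) : ℝ)
      ≤ (Fintype.card Ω : ℝ) ^ 80 * ((M : ℝ) / Q)) →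
    ∃ (w₀ : ℕ) (γ : Fin 97 → ℕ) (η : Fin 40 → ℕ), 1 ≤ w₀ ∧
      (∀ i, 1 ≤ γ i ∧ γ i ≤ 400 * M) ∧ (∀ j, 1 ≤ η j ∧ η j ≤ 4 * M) ∧
      ∀ z : ZMod Q, ∃ (X : Fin n → Fin 97 → Ω) (Y : Fin n → Fin 40 → Ω) (u : Fin n → ℕ),
        (∀ i, w₀ * u i = ∑ j, γ j * x (X i j) + w₀ * ∑ j, η j * x (Y i j)) ∧
        ((∑ i, u i : ℕ) : ZMod Q) = z := by
  sorry

end Crest.Agent.Egy
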