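import Mathlib

/-!
# Row 19 (S0025): Egyptian fractions with O(log log b) terms.  Basic calculus.

`UF k θ`: the rational `θ` is a sum of at most `k` unit fractions `1/n`, `n ≥ 1`, repetition allowed.
-/

set_option autoImplicit false

namespace Crest.Agent.Egy

/-- `θ` is a sum of at most `k` unit fractions `1/n`, `n ≥ 1` (repetition allowed). -/
def UF (k : ℕ) (θ : ℚ) : Prop :=
  ∃ s : Multiset ℕ, Multiset.card s ≤ k ∧ (∀ n ∈ s, 1 ≤ n) ∧
    (s.map (fun n : ℕ => (1 : ℚ) / (n : ℚ))).sum = θ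

theorem UF.zero (k : ℕ) : UF k 0 := ⟨0, by simp, by simp, by simp⟩

theorem UF.unit {n : ℕ} (hn : 1 ≤ n) : UF 1 ((1 : ℚ) / (n : ℚ)) :=
  ⟨{n}, by simp, by simpa using hn, by simp⟩

theorem UF.mono {k k' : ℕ} {θ : ℚ} (h : UF k θ) (hk : k ≤ k') : UF k' θ := by
  obtain ⟨s, h1, h2, h3⟩ := h
  exact ⟨s, h1.trans hk, h2, h3⟩

theorem UF.add {k k' : ℕ} {θ θ' : ℚ} (h : UF k θ) (h' : UF k' θ') : UF (k + k') (θ + θ') := by
  obtain ⟨s, h1, h2, h3⟩ := h
  obtain ⟨s', h1', h2', h3'⟩ := h'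
  refine ⟨s + s', ?_, ?_, ?_⟩
  · rw [Multiset.card_add]; omega
  · intro n hn
    rcases Multiset.mem_add.mp hn with h | h
    · exact h2 n h
    · exact h2' n h
  · rw [Multiset.map_add, Multiset.sum_add, h3, h3']

/-- Dividing by a positive integer keeps the number of terms. -/
theorem UF.div {k : ℕ} {θ : ℚ} (h : UF k θ) {n : ℕ} (hn : 1 ≤ n) : UF k (θ / (n : ℚ)) := by
  obtain ⟨s, h1, h2, h3⟩ := h
  refine ⟨s.map (fun m => m * n), by simpa using h1, ?_, ?_⟩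
  · intro m hm
    obtain ⟨a, ha, rfl⟩ := Multiset.mem_map.mp hm
    exact Nat.succ_le_of_lt (Nat.mul_pos (h2 a ha) hn)
  · rw [Multiset.map_map, ← h3, div_eq_mul_inv, ← Multiset.sum_map_mul_right]
    congr 1
    apply Multiset.map_congr rfl
    intro m _
    simp only [Function.comp_apply, Nat.cast_mul, one_div, mul_inv]

/-- `m = 1 + ... + 1`. -/
theorem UF.nat (m : ℕ) : UF m (m : ℚ) :=
  ⟨Multiset.replicate m 1, by simp, by
    intro n hn
    rw [Multiset.eq_of_mem_replicate hn], by simp⟩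

theorem UF.nat_div (m : ℕ) {n : ℕ} (hn : 1 ≤ n) : UF m ((m : ℚ) / (n : ℚ)) :=
  (UF.nat m).div hn

theorem UF.sum {ι : Type*} (s : Finset ι) (k : ι → ℕ) (θ : ι → ℚ) (h : ∀ i ∈ s, UF (k i) (θ i)) :
    UF (∑ i ∈ s, k i) (∑ i ∈ s, θ i) := by
  classical
  induction s using Finset.induction_on with
  | empty => simpa using UF.zero 0
  | insert a s ha ih =>
    rw [Finset.sum_insert ha, Finset.sum_insert ha]
    exact (h a (Finset.mem_insert_self a s)).add (ih (fun i hi => h i (Finset.mem_insert_of_mem hi)))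

theorem UF.nonneg {k : ℕ} {θ : ℚ} (h : UF k θ) : 0 ≤ θ := by
  obtain ⟨s, _, _, h3⟩ := h
  rw [← h3]
  apply Multiset.sum_nonneg
  intro x hx
  obtain ⟨a, _, rfl⟩ := Multiset.mem_map.mp hx
  positivity

theorem UF.of_dvd {a b : ℕ} (ha : 1 ≤ a) (hb : 1 ≤ b) (h : a ∣ b) : UF 1 ((a : ℚ) / (b : ℚ)) := by
  obtain ⟨c, rfl⟩ := h
  have hc : 1 ≤ c := by
    rcases Nat.eq_zero_or_pos c with h | h
    · subst h; simp at hb
    · exact h
  have : ((a : ℚ) / ((a * c : ℕ) : ℚ)) = 1 / (c : ℚ) := by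
    have ha' : (a : ℚ) ≠ 0 := by positivity
    have hc' : (c : ℚ) ≠ 0 := by positivity
    push_cast
    field_simp
  rw [this]
  exact UF.unit hc

end Crest.Agent.Egy
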