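import Crest.Agent.Egy.Defs

/-!
# Chunk DISTINCT (T1): repetition can be removed (Takenouchi).

Proof.  There are only finitely many representations of a fixed `θ` with at most `k` terms
(induction on `k`: some denominator is `≤ k/θ`).  Take one maximising `∑ 1/n_i²`.
Suppose `n` occurs twice.  All `n ≥ 2` because `θ < 1`.
If `n` is even, replace `1/n + 1/n` by `1/(n/2)`.  If `n` is odd, `n ≥ 3`, replace the pair by
`(n+1)/2, n(n+1)/2`: same sum, and the sum of squares increases.
-/

set_option autoImplicit false

namespace Crest.Agent.Egy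

/-- the set of representations -/
def Reps (k : ℕ) (θ : ℚ) : Set (Multiset ℕ) :=
  {s | Multiset.card s ≤ k ∧ (∀ n ∈ s, 1 ≤ n) ∧
    (s.map (fun n : ℕ => (1 : ℚ) / (n : ℚ))).sum = θ}

theorem sum_nonneg_aux (s : Multiset ℕ) :
    0 ≤ (s.map (fun n : ℕ => (1 : ℚ) / (n : ℚ))).sum := by
  apply Multiset.sum_nonneg
  intro x hx
  obtain ⟨a, _, rfl⟩ := Multiset.mem_map.mp hx
  positivity

/-- In a nonempty representation some denominator is at most `k/θ`. -/
theorem exists_small {k : ℕ} {θ : ℚ} {s : Multiset ℕ} (hs : s ∈ Reps k θ) (h0 : s ≠ 0) :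
    ∃ n ∈ s, (n : ℚ) * θ ≤ k := by
  obtain ⟨h1, h2, h3⟩ := hs
  by_contra hcon
  push Not at hcon
  have hθ : 0 < θ := by
    obtain ⟨n, hn⟩ := Multiset.exists_mem_of_ne_zero h0
    obtain ⟨s', rfl⟩ := Multiset.exists_cons_of_mem hn
    rw [← h3, Multiset.map_cons, Multiset.sum_cons]
    have h4 := sum_nonneg_aux s'
    have h5 : (0 : ℚ) < n := by
      have := h2 n hn
      exact_mod_cast this
    have : (0 : ℚ) < 1 / n := by positivity
    linarith
  have hcard : 0 < Multiset.card s := Multiset.card_pos.2 h0
  have hk : (0 : ℚ) < k := by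
    have : 0 < k := lt_of_lt_of_le hcard h1
    exact_mod_cast this
  -- every term < θ/k
  have hlt : ∀ n ∈ s, (1 : ℚ) / n < θ / k := by
    intro n hn
    have h5 : (0 : ℚ) < n := by
      have := h2 n hn
      exact_mod_cast this
    rw [div_lt_div_iff₀ h5 hk]
    have := hcon n hn
    linarith
  have hsum : ∀ t : Multiset ℕ, t ≠ 0 → (∀ n ∈ t, (1 : ℚ) / n < θ / k) →
      (t.map (fun n : ℕ => (1 : ℚ) / (n : ℚ))).sum < Multiset.card t * (θ / k) := by
    intro t
    induction t using Multiset.induction_on with
    | empty => intro h; exact absurd rfl h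
    | cons a t ih =>
      intro _ hall
      rw [Multiset.map_cons, Multiset.sum_cons, Multiset.card_cons]
      have ha := hall a (Multiset.mem_cons_self a t)
      by_cases ht : t = 0
      · subst ht
        simp only [Multiset.map_zero, Multiset.sum_zero, Multiset.card_zero]
        push_cast
        linarith
      · have := ih ht (fun n hn => hall n (Multiset.mem_cons_of_mem hn))
        push_cast
        linarith
  have h6 := hsum s h0 hlt
  rw [h3] at h6
  have h7 : (Multiset.card s : ℚ) * (θ / k) ≤ θ := by
    have : (Multiset.card s : ℚ) ≤ k := by exact_mod_cast h1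
    calc (Multiset.card s : ℚ) * (θ / k) ≤ k * (θ / k) := by
          apply mul_le_mul_of_nonneg_right this; positivity
      _ = θ := by field_simp
  linarith

theorem reps_finite (k : ℕ) : ∀ θ : ℚ, (Reps k θ).Finite := by
  induction k with
  | zero =>
    intro θ
    apply Set.Finite.subset (Set.finite_singleton (0 : Multiset ℕ))
    intro s hs
    have := hs.1
    simpa using this
  | succ k ih =>
    intro θ
    by_cases hθ : 0 < θ
    · have hsub : Reps (k + 1) θ ⊆ {0} ∪
          ⋃ n ∈ Finset.range (Nat.floor (((k + 1 : ℕ) : ℚ) / θ) + 1),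
            (fun s : Multiset ℕ => n ::ₘ s) '' (Reps k (θ - 1 / (n : ℚ))) := by
        intro s hs
        by_cases h0 : s = 0
        · left; simpa using h0
        · right
          obtain ⟨n, hn, hn2⟩ := exists_small hs h0
          obtain ⟨s', rfl⟩ := Multiset.exists_cons_of_mem hn
          obtain ⟨h1, h2, h3⟩ := hs
          simp only [Set.mem_iUnion]
          refine ⟨n, ?_, s', ⟨?_, ?_, ?_⟩, rfl⟩
          · rw [Finset.mem_range, Nat.lt_succ_iff]
            apply Nat.le_floor
            rw [le_div_iff₀ hθ]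
            exact hn2
          · rw [Multiset.card_cons] at h1; omega
          · intro m hm
            exact h2 m (Multiset.mem_cons_of_mem hm)
          · rw [Multiset.map_cons, Multiset.sum_cons] at h3
            linarith
      apply Set.Finite.subset _ hsub
      apply Set.Finite.union (Set.finite_singleton _)
      apply Set.Finite.biUnion (Finset.finite_toSet _)
      intro n _
      exact (ih _).image _
    · apply Set.Finite.subset (Set.finite_singleton (0 : Multiset ℕ))
      intro s hs
      by_contra h0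
      obtain ⟨n, hn⟩ := Multiset.exists_mem_of_ne_zero h0
      obtain ⟨s', rfl⟩ := Multiset.exists_cons_of_mem hn
      obtain ⟨h1, h2, h3⟩ := hs
      rw [Multiset.map_cons, Multiset.sum_cons] at h3
      have h4 := sum_nonneg_aux s'
      have h5 : (0 : ℚ) < n := by
        have := h2 n hn
        exact_mod_cast this
      have : (0 : ℚ) < 1 / n := by positivity
      linarith

/-- sum of the squares -/
def sq (s : Multiset ℕ) : ℚ := (s.map (fun n : ℕ => (1 : ℚ) / (n : ℚ) ^ 2)).sum

theorem distinct {k : ℕ} {θ : ℚ} (h : UF k θ) (h1 : θ < 1) :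
    ∃ S : Finset ℕ, (∀ n ∈ S, 2 ≤ n) ∧ S.card ≤ k ∧ ∑ n ∈ S, (1 : ℚ) / (n : ℚ) = θ := by
  obtain ⟨s₀, hs₀⟩ := h
  obtain ⟨s, hs, hmax⟩ := Set.exists_max_image (Reps k θ) sq (reps_finite k θ) ⟨s₀, hs₀⟩
  obtain ⟨hc, hpos, hsum⟩ := hs
  have hge2 : ∀ n ∈ s, 2 ≤ n := by
    intro n hn
    have h2 := hpos n hn
    by_contra hlt
    have : n = 1 := by omega
    subst this
    obtain ⟨s', rfl⟩ := Multiset.exists_cons_of_mem hn
    rw [Multiset.map_cons, Multiset.sum_cons] at hsum
    have h4 := sum_nonneg_aux s'
    norm_num at hsum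
    simp only [one_div] at h4
    linarith
  have hnodup : s.Nodup := by
    by_contra hnd
    rw [Multiset.nodup_iff_ne_cons_cons] at hnd
    push Not at hnd
    obtain ⟨n, t, hn⟩ := hnd
    subst hn
    have hn2 : 2 ≤ n := hge2 n (by simp)
    simp only [Multiset.map_cons, Multiset.sum_cons, Multiset.card_cons] at hsum hc
    have hn0 : (0 : ℚ) < n := by positivity
    rcases Nat.even_or_odd' n with ⟨m, hm | hm⟩
    · -- even
      have hm1 : 1 ≤ m := by omega
      have hmem : (m ::ₘ t) ∈ Reps k θ := by
        refine ⟨?_, ?_, ?_⟩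
        · rw [Multiset.card_cons]; omega
        · intro x hx
          rcases Multiset.mem_cons.1 hx with rfl | hx
          · exact hm1
          · exact hpos x (by simp [hx])
        · rw [Multiset.map_cons, Multiset.sum_cons, ← hsum, hm]
          have : (m : ℚ) ≠ 0 := by positivity
          push_cast
          field_simp
          ring
      have := hmax _ hmem
      unfold sq at this
      simp only [Multiset.map_cons, Multiset.sum_cons] at this
      rw [hm] at this
      have hm0 : (0 : ℚ) < m := by exact_mod_cast hm1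
      have e1 : (1 : ℚ) / ((2 * m : ℕ) : ℚ) ^ 2 = 1 / 4 * (1 / (m : ℚ) ^ 2) := by
        push_cast; field_simp; norm_num
      rw [e1] at this
      have : (0 : ℚ) < 1 / (m : ℚ) ^ 2 := by positivity
      linarith
    · -- odd
      have hm1 : 1 ≤ m := by omega
      have hmem : ((m + 1) ::ₘ (n * (m + 1)) ::ₘ t) ∈ Reps k θ := by
        refine ⟨?_, ?_, ?_⟩
        · rw [Multiset.card_cons, Multiset.card_cons]; omega
        · intro x hx
          rcases Multiset.mem_cons.1 hx with rfl | hx
          · omega
          · rcases Multiset.mem_cons.1 hx with rfl | hx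
            · have : 0 < n * (m + 1) := by positivity
              omega
            · exact hpos x (by simp [hx])
        · rw [Multiset.map_cons, Multiset.sum_cons, Multiset.map_cons, Multiset.sum_cons, ← hsum, hm]
          have : (2 * (m : ℚ) + 1) ≠ 0 := by positivity
          have : ((m : ℚ) + 1) ≠ 0 := by positivity
          push_cast
          field_simp
          ring
      have := hmax _ hmem
      unfold sq at this
      simp only [Multiset.map_cons, Multiset.sum_cons] at this
      rw [hm] at this
      have hm0 : (1 : ℚ) ≤ m := by exact_mod_cast hm1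
      have e1 : (1 : ℚ) / ((2 * m + 1 : ℕ) : ℚ) ^ 2 + 1 / ((2 * m + 1 : ℕ) : ℚ) ^ 2
          < 1 / ((m + 1 : ℕ) : ℚ) ^ 2 + 1 / (((2 * m + 1) * (m + 1) : ℕ) : ℚ) ^ 2 := by
        have h3 : (2 * (m : ℚ) + 1) > 0 := by positivity
        have h4 : ((m : ℚ) + 1) > 0 := by positivity
        push_cast
        have : 1 / ((m : ℚ) + 1) ^ 2 + 1 / ((2 * (m : ℚ) + 1) * (m + 1)) ^ 2
            - (1 / (2 * (m : ℚ) + 1) ^ 2 + 1 / (2 * (m : ℚ) + 1) ^ 2)
            = (2 * (m : ℚ) ^ 2) / ((2 * (m : ℚ) + 1) * (m + 1)) ^ 2 := by
          field_simp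
          ring
        have h5 : (0 : ℚ) < (2 * (m : ℚ) ^ 2) / ((2 * (m : ℚ) + 1) * (m + 1)) ^ 2 := by positivity
        linarith
      linarith
  refine ⟨⟨s, hnodup⟩, hge2, hc, ?_⟩
  exact hsum

end Crest.Agent.Egy
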