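import Crest.Agent.Egy.Defs

/-!
# Chunk RECUR (T4): gluing the stages.

`Stage` = statement of the Stage Lemma (proved in `Stage.lean`), `MP` = the conclusion needed by `Top.lean`.

Write `σ = 2^ρ`, `y' = σ` (so `y = 8σ`), `T(s) = 2^{(32σ+1)s}`.
`Red W W' B c := ∃ N', 1 ≤ N' ≤ 2^B ∧ ∀ m < W, ∃ m' < W', ∀ N ≥ 1, ∀ h, UF h (m'/N) → UF (h+c) (m/(N'N))`; it composes:
`Red W W' B c → Red W' W'' B' c' → Red W W'' (B+B') (c+c')`.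

Use of one stage `(Γ,Q)` at `s`: for `m ≥ T(s)`: `m = u + Qm'`, `m' ≤ m/Q`, `m/(ΓQN) = u/(ΓQN) + m'/(ΓN)`, so
`UF h (m'/N) → UF (h + C₄t') (m/(ΓQN))`.  Skipping it: `UF h (m/N) → UF h (m/(ΓQN))`.

Block lemma (`s` divisible by `2^{2δ}`, `2^δ (C₅+1)·2 ≤ 32σ+1`, `δ ≥ 1`): positions `s_r = s - r·step`, `step = s/2^{2δ}`, `1 ≤ r ≤ R`,
`s_R = s/2^δ`.  `Red T(s) T(s/2^δ) (2^{2δ}·C₆ σ s 2^{32k}) (C₄t')`, `t' = σ/k`: for `m < T(s)` take the least `r` with `m ≥ T(s_r)`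
(if none, skip all stages) and use stage `r`, then skip the rest; `m' ≤ T(s_{r-1})/Q_r ≤ 2^{(32σ+1)step + (C₅+1)s} < T(s/2^δ)`.
Formally by induction: `Red (T(s_{R-r})) (T(s_R)) (B·r) (C₄t')` for `r = 0..R`.

Superblock `n` (`3 ≤ n ≤ ρ-2`): from `α = 2^n` to `2^{n+1}` (position `s = 2^{σ-α}`) by `2^n/δ` blocks with
`δ = 2^{min(n-3, λ)}`, `2^{2^λ}·2(C₅+1) ≤ 2^{ρ+5}`, `2^λ ≥ (ρ-C)/2`, and `k = max(8, 2^{n-7})` (powers of two, `t' = σ/k ≥ 4`).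
Budget `≤ ∑ C₆σ 2^{σ-α} 2^{32k} 2^{2δ} ≤ C₆ σ 2^{256} 2^{σ - 2^n + 2^{n-2} + 2^{n-2} + n}`, summable: `≤ C σ 2^σ`.
Cost `(2^n/δ)·C₄·σ/k ≤ 2^7 C₄ σ/δ`; the sum over `n` is `≤ Cσ(∑ 2^{-(n-3)} + ρ/2^λ) = O(σ)`.
Start with one block with `δ = 8`, `k = 8` from `α = 0` to `α = 8`, finish with one block with `δ = 8` from `α = σ/2` to `α = σ/2+8`.
Total: `Red (T(2^σ)) (T(2^{σ/2-8})) (Cσ2^σ) (Cσ)` and `T_σ(2^{σ/2-8}) = 2^{(32σ+1)2^{σ/2-8}} ≤ W(ρ-1)`, `W(ρ) = 2^{(32·2^ρ+1)·2^{2^ρ}}`.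
Induction on `ρ` finishes; for `ρ ≤ ρ₀` use `N = 1`, `UF.nat`.
-/

set_option autoImplicit false

namespace Crest.Agent.Egy

def Stage : Prop := ∃ C₄ C₅ C₆ y₀ : ℕ, ∀ k t' y' s : ℕ, 8 ≤ k → 4 ≤ t' → y' = k * t' → y₀ ≤ y' →
    8 * y' ≤ s → s ≤ 2 ^ y' →
    ∃ Γ Q : ℕ, 1 ≤ Γ ∧ 1 ≤ Q ∧ Γ * Q ≤ 2 ^ (C₆ * y' * s * 2 ^ (32 * k)) ∧
      2 ^ (32 * y' * s) ≤ Q * 2 ^ (C₅ * s) ∧
      ∀ m, 2 ^ ((32 * y' + 1) * s) ≤ m → ∃ u ≤ m, u ≡ m [MOD Q] ∧ UF (C₄ * t') ((u : ℚ) / (Γ : ℚ))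

theorem mp_of_stage (hS : Stage) : ∃ C₁ C₂ : ℕ, ∀ ρ : ℕ, ∃ N : ℕ, 1 ≤ N ∧ N ≤ 2 ^ (C₁ * (2 ^ ρ * 2 ^ 2 ^ ρ)) ∧
    ∀ m < 2 ^ ((32 * 2 ^ ρ + 1) * 2 ^ 2 ^ ρ), UF (C₂ * 2 ^ ρ) ((m : ℚ) / (N : ℚ)) := by
  sorry

end Crest.Agent.Egy
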