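import Mathlib

/-!
# Chunk MOMENT (T5f, archimedean part): `E[1/|δ|_∞; δ ≠ 0]` is small.

`δ_j = x(y_j) - x(y'_j)`, `|δ| = max_j |δ_j|`, `j < 40`.
`|x-x'| < z` puts `x` in two intervals of length `z` starting at `x'-z` and `x'`, so
`P(|δ| < 2^{2Y-4f}) ≤ (2·2^{e-f/2})^40 = 2^{40(e+1)-20f}` for `f ≤ F`.
Pointwise for `δ ≠ 0`: `1/|δ| ≤ 2^{-2Y} + ∑_{f<F} 1[|δ| < 2^{2Y-4f}] 2^{4(f+1)-2Y} + 1[|δ| < 2^{2Y-4F}]`.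
So `E ≤ 2^{-2Y}(1 + ∑_{f<F} 2^{4(f+1)+40(e+1)-20f}) + 2^{40(e+1)-20F}`, and `20F ≥ 5Y`.
(The term `1/0 = 0` for `δ = 0`.)
-/

set_option autoImplicit false

namespace Crest.Agent.Egy

theorem inv_moment {Ω : Type} [Fintype Ω] (x : Ω → ℕ) (Y F e : ℕ) (hF : Y ≤ 4 * F) (hF2 : 4 * F ≤ 2 * Y)
    (H : ∀ f ≤ F, ∀ τ : ℤ,
      (Finset.univ.filter (fun ω => τ ≤ (x ω : ℤ) ∧ (x ω : ℤ) < τ + 2 ^ (2 * Y - 4 * f))).card ^ 2 * 2 ^ f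
        ≤ (2 ^ e * Fintype.card Ω) ^ 2) :
    ∑ y : Fin 40 → Ω, ∑ y' : Fin 40 → Ω,
        (1 : ℝ) / ((Finset.univ.sup fun j => ((x (y j) : ℤ) - (x (y' j) : ℤ)).natAbs : ℕ) : ℝ)
      ≤ (Fintype.card Ω : ℝ) ^ 80 * (2 ^ (40 * e + 50) / 2 ^ (2 * Y)) := by
  sorry

end Crest.Agent.Egy
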