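import Mathlib

/-!
# Chunk PRIMES (T5a): many primes in `[2^{y-2}, 2^y)`, `y = 8y'`.

Use `Chebyshev.theta_ge` and `Chebyshev.theta_le_log4_mul_x` (Mathlib/NumberTheory/Chebyshev.lean):
`θ(2^y) - θ(2^{y-2}) ≥ 2^y log 2 - log(2^y+1) - 2·2^{y/2}·y·log 2 - 2^{y-2}·2·log 2 ≥ 2^{y-2}·log 2` for large `y`,
and `θ(2^y) - θ(2^{y-2}) ≤ #{primes in (2^{y-2}, 2^y]} · y log 2`; finally `2^{y-2}/y ≥ 2^{7y/8}` for large `y`.
-/

set_option autoImplicit false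

namespace Crest.Agent.Egy

theorem primes_lower : ∃ y₀ : ℕ, ∀ y' : ℕ, y₀ ≤ y' →
    2 ^ (7 * y') ≤ ((Finset.Ico (2 ^ (8 * y' - 2)) (2 ^ (8 * y'))).filter Nat.Prime).card := by
  sorry

end Crest.Agent.Egy
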