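import Mathlib

/-!
# Chunk SPREAD (T5c): spread of the digit sums `x(ω) = ∑_{j ≤ t} b^j d(ω_j)`, `b = 2^{4β}`, `b^t = 2^Y`.

Let `q_n(z)` = max over intervals `[τ, τ+z)` of the proportion of `ω ∈ D^n` with `x_n(ω) ∈ [τ, τ+z)`; `x_{n+1}(ω) = d(ω_0) + b x_n(tail ω)`.
(1) `q_{n+1}(b z) ≤ q_n(z)`.
(2) for `z ≤ 2^Y`: `q_{n+1}(z) ≤ q_D(z) · q_n(2^{Y+1}/b)` (given the tail, `d(ω_0) ∈ [τ - bx', τ - bx' + z)`; only tails with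
    `τ - 2^Y < bx' < τ + z` matter, i.e. `x'` in an interval of length `2^{Y+1-4β} ≤ 2^{Y - 4(β-1)}`).
Write `f = β a + f'`, `0 ≤ f' < β`, `a ≤ t` (or `f = β(t+1)`, `a = t`, `f' = β`). By (1) `t - a` times,
`q_{t+1}(2^{2Y-4f}) = q_{t+1}(b^{t-a} 2^{Y-4f'}) ≤ q_{a+1}(2^{Y-4f'})`, and by (2)
`≤ q_D(2^{Y-4f'}) q_a(2^{Y-4(β-1)}) ≤ q_D(2^{Y-4f'}) ϑ^a`, `ϑ = q_D(2^{Y-4(β-1)}) ≤ 2^{e+1-β} ≤ 2^{-β/2}`.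
So `q_{t+1}(2^{2Y-4f})² ≤ 2^{2e - 2f' - aβ} ≤ 2^{2e-f}`.
-/

set_option autoImplicit false

namespace Crest.Agent.Egy

theorem spread {D : Type} [Fintype D] (d : D → ℕ) (Y e β t : ℕ) (hY : Y = 4 * β * t) (ht : 1 ≤ t)
    (he : 2 * (e + 1) ≤ β) (hd : ∀ x, d x < 2 ^ Y)
    (H : ∀ i ≤ β, ∀ τ : ℤ,
      (Finset.univ.filter (fun x => τ ≤ (d x : ℤ) ∧ (d x : ℤ) < τ + 2 ^ (Y - 4 * i))).card * 2 ^ i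
        ≤ 2 ^ e * Fintype.card D) :
    ∀ f ≤ β * (t + 1), ∀ τ : ℤ,
      (Finset.univ.filter (fun ω : Fin (t + 1) → D =>
          τ ≤ ((∑ j : Fin (t + 1), (2 ^ (4 * β)) ^ (j : ℕ) * d (ω j) : ℕ) : ℤ) ∧
            ((∑ j : Fin (t + 1), (2 ^ (4 * β)) ^ (j : ℕ) * d (ω j) : ℕ) : ℤ) < τ + 2 ^ (2 * Y - 4 * f))).card ^ 2 * 2 ^ f
        ≤ (2 ^ e * Fintype.card D ^ (t + 1)) ^ 2 := by
  sorry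

end Crest.Agent.Egy
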