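import Crest.Agent.Egy.Defs
import Crest.Agent.Egy.Primes
import Crest.Agent.Egy.Arch
import Crest.Agent.Egy.Spread
import Crest.Agent.Egy.Moment
import Crest.Agent.Egy.Cover

/-!
# Chunk STAGE (T5 assembly): the Stage Lemma.

`y = 8y'`, `K = 2^{32k}`, `t = 2t'`, `β = ks`, `Y = ys = 4βt`, `b = 2^{4β}`, `b^t = 2^Y`, `D = Fin s → Fin K`, `d(κ) = ∏ A_l(κ_l) < 2^Y`
(from `arch` with the primes of `primes_lower`), `e = 2s+1`, `Ω = Fin (t+1) → D`, `x(ω) = ∑ b^j d(ω_j) < M := 2^{2Y+1}`.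
`spread` gives the spread of `x`, `f = F = β(t+1)` gives the point probability, `inv_moment` gives the inverse moment;
`Q` prime in `(X, 2X]`, `X = 2^{2·2Y - 90s}` (or so; Bertrand), `Γ = b^t · ∏_{l,i} A_l(i) · ∏ γ · ∏ η`; each term `γ_i b^j d/(w₀Γ)`,
`η_i b^j d/Γ` is a unit fraction since `γ_i b^j d ∣ Γ`.
-/

set_option autoImplicit false

namespace Crest.Agent.Egy

theorem stage : ∃ C₄ C₅ C₆ y₀ : ℕ, ∀ k t' y' s : ℕ, 8 ≤ k → 4 ≤ t' → y' = k * t' → y₀ ≤ y' →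
    8 * y' ≤ s → s ≤ 2 ^ y' →
    ∃ Γ Q : ℕ, 1 ≤ Γ ∧ 1 ≤ Q ∧ Γ * Q ≤ 2 ^ (C₆ * y' * s * 2 ^ (32 * k)) ∧
      2 ^ (32 * y' * s) ≤ Q * 2 ^ (C₅ * s) ∧
      ∀ m, 2 ^ ((32 * y' + 1) * s) ≤ m → ∃ u ≤ m, u ≡ m [MOD Q] ∧ UF (C₄ * t') ((u : ℚ) / (Γ : ℚ)) := by
  sorry

end Crest.Agent.Egy
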