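import Crest.Agent.Egy.Defs

/-!
# Chunk TOP (T3): from "all m/N with m < 2^L" to "all a/b with b < 2^L".

Notation: `W = 2^L`, `ℓ(θ) ≤ k` for `UF k θ`, `K = C₁L`, `N* = 2^K N` (so `N ≤ 2^K`).
(For `L < 16` use `UF.nat_div a` with `a < 2^16 ≤ C`.)

(i) `a N* = q b + r`, `0 ≤ r < b < W`:  `a/b = q/N* + r/(bN*)` and `r/(bN*) = (r/N)/(b 2^K)` costs `≤ h`;
`q < N*`.

(ii) `q < N*` costs `≤ C(h + log L + 1)`, by rounds: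
 * if `q < W`: `q/N* = (q/N)/2^K` costs `≤ h`.
 * otherwise there is `N₂ ∣ N*` with `q ≤ N₂ < 2q` (`N₂ = 2^i` if `q ≤ 2^K`, otherwise `N₂ = 2^i N`);
   put `N₁ = N*/N₂`, `B = 2^⌊L/4⌋`, and run Sylvester's greedy algorithm on `θ₀ = q/N₂ ∈ (1/2, 1]`:
   state `(q_i, G_i)`, `q₀ = q`, `G₀ = 1`, `θ_i = q_i/(N₂G_i)`, `n = ⌈N₂G_i/q_i⌉`,
   `q_{i+1} = q_i n - N₂G_i < q_i`, `G_{i+1} = G_i n`, `θ_i = 1/n + θ_{i+1}`,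
   `θ_{i+1} < θ_i²/(1+θ_i) ≤ θ_i²` and `θ₁ < 1/2`, hence `θ_i < 2^{-2^{i-1}}`.
   Stop when `q_i = 0` or `G_i > B` or `θ_i < 1/B` (at most `log₂ L + 2` steps).  As long as we go on
   `n ≤ B` and `G_i ≤ B`, so always `G_s ≤ B² ≤ W`.
   At the stop write `q_s = q' G_s + r`, `r < G_s ≤ W`; then
   `q/N* = ∑ 1/(n_i N₁) + q'/N* + r/(N* G_s)`, `r/(N*G_s) = (r/N)/(2^K G_s)` costs `≤ h`,
   and `q' ≤ 2q/B`.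
 * each round costs `≤ (log₂ L + 2) + h` and divides `q` by `B/2 ≥ 2^{L/8}`; `q < N* ≤ 2^{2C₁L}`, so
   `16 C₁ + 1` rounds are enough.
-/

set_option autoImplicit false

namespace Crest.Agent.Egy

theorem top (C₁ : ℕ) : ∃ C : ℕ, ∀ L h N : ℕ, 1 ≤ L → 1 ≤ N → N ≤ 2 ^ (C₁ * L) →
    (∀ m < 2 ^ L, UF h ((m : ℚ) / (N : ℚ))) →
    ∀ a b : ℕ, a < b → b < 2 ^ L → UF (C * (h + Nat.log 2 L + 1)) ((a : ℚ) / (b : ℚ)) := by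
  sorry

end Crest.Agent.Egy
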