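import Crest.Agent.Egy.Distinct
import Crest.Agent.Egy.Top
import Crest.Agent.Egy.Recur
import Crest.Agent.Egy.Stage

/-!
# Chunk FINAL: assembly.

Given `b`, take the least `ρ` with `b < 2^L`, `L = (32·2^ρ+1)·2^(2^ρ)`, `h = C₂ 2^ρ`; `log₂ L ≤ 8·2^ρ`; by minimality
`log₂ b ≥ 2^(2^(ρ-1))`, so `2^ρ ≤ 2 log₂ log₂ b`.
-/

set_option autoImplicit false

namespace Crest.Agent.Egy

theorem main :
    ∃ C : ℝ, ∃ b₀ : ℕ, ∀ (a b : ℕ), b₀ ≤ b → 1 ≤ a → a < b →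
      ∃ S : Finset ℕ, (∀ n ∈ S, 2 ≤ n) ∧ (S.card : ℝ) ≤ C * Real.log (Real.log (b : ℝ)) ∧
        ∑ n ∈ S, (1 : ℚ) / (n : ℚ) = (a : ℚ) / (b : ℚ) := by
  sorry

end Crest.Agent.Egy
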